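import Crest.Agent.R193.A.Main
import Crest.Agent.R193.D.Main
import Crest.Agent.R193.L.Main
import Crest.Agent.R193.FD.Main
import Crest.Agent.R193.G.Main
import Crest.Agent.R193.E.Main
import Crest.Agent.R193.P.Main
import Crest.Agent.R193.W.Main
import Crest.Agent.R193.H.Main

/-!
# R193/Main: assembly
-/

set_option autoImplicit false
open Set Metric Filter Topology MeasureTheory

namespace Crest.Agent.R193

variable {G : Type} [Group G] {Z : Type} [MetricSpace Z] [CompactSpace Z] [MulAction G Z]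

theorem exists_mob (H : HA G Z) :
    ∃ Φ : Z ≃ₜ OnePoint ℂ, ∀ g : G, IsMob (fun p => Φ (g • Φ.symm p)) := by
  obtain ⟨Γ⟩ := H.exists_cov
  have hM := mainEst H Γ
  have hG := loewG Γ H.sph H.dist_le H.llc2 hM
  have hL := loewL Γ H.sph H.dist_le H.llc2 hM
  obtain ⟨x₀, ρ, φ, hρ, hφ⟩ := exists_QS Γ H.sph H.dist_le hG hL
    (exists_loc Γ H.sph H.dist_le hG hL)
  have hc := hφ.toQC H.sph
  obtain ⟨F⟩ := exists_form H hc ⟨x₀, mem_ball_self (by positivity)⟩
  obtain ⟨Φ, hΦ⟩ := exists_weakHarm H hc F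
  refine ⟨Φ, fun g => ?_⟩
  haveI := H.ccs
  exact isMob_of_weakHarm (Φ.symm.trans ((Homeomorph.smul g).trans Φ)) (hΦ g)

end Crest.Agent.R193
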